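import Vale.Agent.P181.MD.H809.Num

set_option autoImplicit false

/-!
# P181, RV: a gap after row `m ≥ 3`
-/

namespace Vale.Agent.P181.RV.H809

open Vale.Agent.P181.T4 (ex)
open Vale.Agent.P181.PL (dn)

lemma teleX (x : ℕ → ℕ) (X A Y : ℕ)
    (h : ∀ m, 2 ≤ m → m < Y + 2 → X * x m ≤ X * x (m + 1) + A) :
    X * x 2 ≤ X * x (Y + 2) + A * Y := MD.H809.tele (fun i => X * x i) A Y h

/-- The gap. -/
lemma exists_gapV {a b n Y X : ℕ} {lam : Fin n → ℕ} (hanti : Antitone lam) (ha : 0 < a)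
    (hYa : 4 * Y ^ 4 ≤ a) (hX : 4 * Y ^ 3 < X) (hb : b ≤ Y * a) (hd : dn lam Y ≤ b * Y)
    (hD : a ^ 2 ≤ Y * dn lam 2) :
    ∃ m, 3 ≤ m ∧ m ≤ Y + 2 ∧ a ^ 2 + X * ex lam m ≤ X * ex lam (m - 1) := by
  by_contra hcon
  push Not at hcon
  have h1 := teleX (fun i => ex lam i) X (a ^ 2) Y (fun m hm hm' => by
    have h2 := hcon (m + 1) (by omega) (by omega)
    have h3 : m + 1 - 1 = m := by omega
    rw [h3] at h2
    show X * ex lam m ≤ X * ex lam (m + 1) + a ^ 2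
    omega)
  have h2 : ex lam (Y + 2) ≤ Y ^ 2 * a := by
    calc ex lam (Y + 2) ≤ dn lam (Y + 2) := PL.ex_le_dn lam _
      _ ≤ dn lam Y := PL.dn_anti lam (by omega)
      _ ≤ b * Y := hd
      _ ≤ (Y * a) * Y := Nat.mul_le_mul_right _ hb
      _ = Y ^ 2 * a := by ring
  have h3 : dn lam 2 ≤ Y * ex lam 2 + Y ^ 2 * a := by
    have e1 := PL.dn_le hanti 2 Y
    have e2 : dn lam (2 + Y) ≤ Y ^ 2 * a := by
      calc dn lam (2 + Y) ≤ dn lam Y := PL.dn_anti lam (by omega)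
        _ ≤ b * Y := hd
        _ ≤ (Y * a) * Y := Nat.mul_le_mul_right _ hb
        _ = Y ^ 2 * a := by ring
    omega
  have h4 : X * ex lam 2 ≤ X * (Y ^ 2 * a) + a ^ 2 * Y :=
    h1.trans (Nat.add_le_add_right (Nat.mul_le_mul_left _ h2) _)
  have h5 : X * a ^ 2 ≤ 2 * (X * (Y ^ 3 * a)) + Y ^ 3 * a ^ 2 + X * (Y ^ 4 * a) := by
    calc X * a ^ 2 ≤ X * (Y * dn lam 2) := Nat.mul_le_mul_left _ hD
      _ ≤ X * (Y * (Y * ex lam 2 + Y ^ 2 * a)) :=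
          Nat.mul_le_mul_left _ (Nat.mul_le_mul_left _ h3)
      _ = Y ^ 2 * (X * ex lam 2) + X * (Y ^ 3 * a) := by ring
      _ ≤ Y ^ 2 * (X * (Y ^ 2 * a) + a ^ 2 * Y) + X * (Y ^ 3 * a) :=
          Nat.add_le_add_right (Nat.mul_le_mul_left _ h4) _
      _ = X * (Y ^ 3 * a) + Y ^ 3 * a ^ 2 + X * (Y ^ 4 * a) := by ring
      _ ≤ _ := by omega
  have hY : Y ^ 3 ≤ Y ^ 4 ∨ Y = 0 := by
    rcases Nat.eq_zero_or_pos Y with h | h
    · exact Or.inr h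
    · exact Or.inl (Nat.pow_le_pow_right h (by norm_num))
  rcases hY with hY | hY
  · -- `X a² ≤ 3 X Y⁴ a + Y³ a²`
    have h6 : X * (4 * Y ^ 4 * a) ≤ X * (a * a) :=
      Nat.mul_le_mul_left _ (Nat.mul_le_mul_right _ hYa)
    have h7 : X * (Y ^ 3 * a) ≤ X * (Y ^ 4 * a) :=
      Nat.mul_le_mul_left _ (Nat.mul_le_mul_right _ hY)
    have h8 : (4 * Y ^ 3) * a ^ 2 < X * a ^ 2 :=
      Nat.mul_lt_mul_of_pos_right hX (pow_pos ha 2)
    have e1 : X * (4 * Y ^ 4 * a) = 4 * (X * (Y ^ 4 * a)) := by ring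
    have e2 : X * (a * a) = X * a ^ 2 := by ring
    have e3 : (4 * Y ^ 3) * a ^ 2 = 4 * (Y ^ 3 * a ^ 2) := by ring
    omega
  · rw [hY] at hD
    have : 0 < a ^ 2 := pow_pos ha 2
    omega

end Vale.Agent.P181.RV.H809
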