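import Vale.Agent.P181.RV.H627.UDefs
import Vale.Agent.P181.RV.H809.Gap
import Vale.Agent.P181.MD.H809.Fin

set_option autoImplicit false

/-!
# P181, RVU: [NEARV] from [COREVU], the fat shapes and the polylogarithmic theorem
-/

namespace Vale.Agent.P181.RV.H809

open Finset Vale.Agent.P181
open Vale.Agent.P181.T4 (ex)
open Vale.Agent.P181.H280 (plethMult)
open Vale.Agent.P181.PL (dn exlt exge exfin exanti dn_succ)

theorem dn_le_of_min {b k Y : ℕ} {mu : Fin k → ℕ} (hanti : Antitone mu)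
    (h : ∑ i, min b (mu i) < Y * b) : dn mu Y ≤ b * Y := by
  have hlt : ∀ i : Fin k, Y ≤ (i : ℕ) → mu i < b := by
    intro i hi
    by_contra hcon
    push Not at hcon
    have h1 : ∑ j ∈ univ.filter (fun j : Fin k => (j : ℕ) < Y), min b (mu j) ≤
        ∑ j, min b (mu j) := Finset.sum_le_sum_of_subset (Finset.filter_subset _ _)
    have h2 : ∑ j ∈ univ.filter (fun j : Fin k => (j : ℕ) < Y), min b (mu j) = Y * b := by
      have h3 : ∀ j ∈ univ.filter (fun j : Fin k => (j : ℕ) < Y), min b (mu j) = b := by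
        intro j hj
        have h4 := (Finset.mem_filter.1 hj).2
        have h5 : mu i ≤ mu j := hanti (show (j : ℕ) ≤ i by omega)
        exact min_eq_left (hcon.trans h5)
      have h6 : (univ.filter (fun j : Fin k => (j : ℕ) < Y)).card = Y := by
        rw [Fin.card_filter_val_lt]
        have := i.2
        omega
      rw [Finset.sum_congr rfl h3, Finset.sum_const, h6, smul_eq_mul]
    omega
  have h1 : dn mu Y ≤ ∑ i, min b (mu i) := by
    unfold dn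
    refine Finset.sum_le_sum fun i _ => ?_
    by_cases h2 : Y ≤ (i : ℕ)
    · rw [if_pos h2]
      exact le_min (hlt i h2).le le_rfl
    · rw [if_neg h2]
      exact Nat.zero_le _
  have h2 : Y * b = b * Y := by ring
  omega

/-- The parameters `q` and `X`. -/
theorem exists_q {a b X : ℕ} {M l : ℝ} (ha : 3 ≤ a) (hX : 2 ≤ X) (hM : 1 ≤ M) (hl : 1 / 2 ≤ l)
    (hXl : Real.log X ≤ M * l) (h : 400 * M * b * l ≤ ((b : ℝ) - a) * Real.log a) :
    ∃ q : ℕ, 1 ≤ q ∧ (2 * q : ℝ) ≤ Real.log a ∧ X ^ (200 * q) ≤ a ∧ (q + 1) * a ≤ q * b := by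
  have haR : (3 : ℝ) ≤ a := by exact_mod_cast ha
  have hla : 0 < Real.log a := Real.log_pos (by linarith)
  have hXR : (2 : ℝ) ≤ X := by exact_mod_cast hX
  have hlX : 1 / 2 ≤ Real.log X := by
    have h1 : Real.log 2 ≤ Real.log X := Real.log_le_log (by norm_num) hXR
    have := Real.log_two_gt_d9
    linarith
  have hb0 : (0 : ℝ) ≤ b := Nat.cast_nonneg _
  have hba : 0 ≤ (b : ℝ) - a := by
    by_contra hcon
    push Not at hcon
    have h1 : ((b : ℝ) - a) * Real.log a < 0 := mul_neg_of_neg_of_pos hcon hla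
    have h2 : 0 ≤ 400 * M * b * l := by positivity
    linarith
  obtain ⟨z, hz⟩ : ∃ z, z = Real.log a / (200 * Real.log X) := ⟨_, rfl⟩
  have hz0 : 0 ≤ z := by rw [hz]; positivity
  have hzX : 200 * Real.log X * z = Real.log a := by
    rw [hz]
    field_simp
  obtain ⟨q, hq⟩ : ∃ q, q = ⌊z⌋₊ := ⟨_, rfl⟩
  have hq1 : (q : ℝ) ≤ z := by rw [hq]; exact Nat.floor_le hz0
  have hq2 : z < q + 1 := by rw [hq]; exact Nat.lt_floor_add_one z
  -- `z (b - a) ≥ 2 b`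
  have h1 : 2 * (b : ℝ) ≤ z * ((b : ℝ) - a) := by
    have h2 : 400 * M * b * l ≤ (200 * (M * l)) * (z * ((b : ℝ) - a)) := by
      calc 400 * M * b * l ≤ ((b : ℝ) - a) * Real.log a := h
        _ = (200 * Real.log X) * (z * ((b : ℝ) - a)) := by rw [← hzX]; ring
        _ ≤ (200 * (M * l)) * (z * ((b : ℝ) - a)) :=
            mul_le_mul_of_nonneg_right (by linarith) (mul_nonneg hz0 hba)
    have h3 : 0 < 200 * (M * l) := by positivity
    have h4 : (200 * (M * l)) * (2 * (b : ℝ)) ≤ (200 * (M * l)) * (z * ((b : ℝ) - a)) := by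
      calc (200 * (M * l)) * (2 * (b : ℝ)) = 400 * M * b * l := by ring
        _ ≤ _ := h2
    exact le_of_mul_le_mul_left h4 h3
  have h5 : (b : ℝ) + a ≤ q * ((b : ℝ) - a) := by
    have h6 : z * ((b : ℝ) - a) ≤ (q + 1) * ((b : ℝ) - a) :=
      mul_le_mul_of_nonneg_right hq2.le hba
    nlinarith
  refine ⟨q, ?_, ?_, ?_, ?_⟩
  · by_contra hcon
    have h6 : q = 0 := by omega
    rw [h6, Nat.cast_zero, zero_mul] at h5
    linarith
  · have h6 : 100 * z ≤ 200 * Real.log X * z :=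
      mul_le_mul_of_nonneg_right (by linarith) hz0
    rw [hzX] at h6
    linarith
  · have h6 : (X : ℝ) ^ (200 * q) ≤ a := by
      rw [← Real.log_le_log_iff (by positivity) (by linarith), Real.log_pow]
      push_cast
      have h7 : 200 * Real.log X * q ≤ 200 * Real.log X * z :=
        mul_le_mul_of_nonneg_left hq1 (by linarith)
      rw [hzX] at h7
      linarith
    exact_mod_cast h6
  · have h6 : (((q + 1) * a : ℕ) : ℝ) ≤ ((q * b : ℕ) : ℝ) := by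
      push_cast
      linarith
    exact_mod_cast h6

/-- The core for all numbers of rows. -/
theorem near_nat {a₁ : ℕ} (hC : ∀ (q a b X m k : ℕ) (lam : Fin (k + 2) → ℕ), 1 ≤ q →
    a₁ ≤ a → Antitone lam → ∑ i, lam i = a * b → k + 2 ≤ a → 2 * q ≤ X → X ^ (200 * q) ≤ a →
    (q + 1) * a ≤ q * b → b ≤ X * a → 3 ≤ m → m ≤ k + 2 → m ≤ X ^ 2 →
    (∀ i : Fin (k + 2), (i : ℕ) < m → a ^ 2 ≤ X * lam i ∧
      ∀ j : Fin (k + 2), m ≤ (j : ℕ) → a ^ 2 + X * lam j ≤ X * lam i) →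
    plethMult a b (k + 2) lam ≤ plethMult b a (k + 2) lam)
    {q a b k Y X : ℕ} {mu : Fin k → ℕ} (haa : a₁ ≤ a) (ha : 0 < a) (hmu1 : Antitone mu)
    (hmu2 : ∑ i, mu i = a * b) (hka : k ≤ a) (h2Y : 2 ≤ Y) (hX : X = 8 * Y ^ 3)
    (hYa : Y ^ 8 ≤ a) (hbY : b ≤ Y * a) (hd : dn mu Y ≤ b * Y) (hD : a ^ 2 ≤ Y * dn mu 2)
    (hq1 : 1 ≤ q) (h2q : 2 * q ≤ Y) (hq3 : X ^ (200 * q) ≤ a) (hq4 : (q + 1) * a ≤ q * b) :
    plethMult a b k mu ≤ plethMult b a k mu := by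
  have hY4 : 4 * Y ^ 4 ≤ a := by
    calc 4 * Y ^ 4 = 2 ^ 2 * Y ^ 4 := by norm_num
      _ ≤ Y ^ 2 * Y ^ 4 := Nat.mul_le_mul_right _ (Nat.pow_le_pow_left h2Y 2)
      _ = Y ^ 6 := by ring
      _ ≤ Y ^ 8 := Nat.pow_le_pow_right (by omega) (by norm_num)
      _ ≤ a := hYa
  have hY3 : 0 < Y ^ 3 := pow_pos (by omega) _
  have hXY : Y ≤ X := by
    have h1 : Y ≤ Y ^ 3 := Nat.le_self_pow (by norm_num) _
    omega
  obtain ⟨m, hm1, hm2, hm3⟩ := exists_gapV (X := X) hmu1 ha hY4 (by omega) hbY hd hD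
  have ha2 : 0 < a ^ 2 := pow_pos ha 2
  have hmk : m ≤ k := by
    by_contra hcon
    have h1 := exge mu (show k ≤ m - 1 by omega)
    rw [h1, mul_zero] at hm3
    omega
  have hmX : m ≤ X ^ 2 := by
    have h1 : X ≤ X ^ 2 := Nat.le_self_pow (by norm_num) _
    have h2 : Y ≤ Y ^ 3 := Nat.le_self_pow (by norm_num) _
    omega
  obtain ⟨k', rfl⟩ : ∃ k', k = k' + 2 := ⟨k - 2, by omega⟩
  refine hC q a b X m k' mu hq1 haa hmu1 hmu2 hka (by omega) hq3 hq4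
    (hbY.trans (Nat.mul_le_mul_right _ hXY)) hm1 hmk hmX fun i hi => ?_
  have h1 : X * ex mu (m - 1) ≤ X * mu i := by
    refine Nat.mul_le_mul_left _ ?_
    rw [← exfin mu i]
    exact exanti hmu1 (by omega)
  refine ⟨by omega, fun j hj => ?_⟩
  have h2 : X * mu j ≤ X * ex mu m := by
    refine Nat.mul_le_mul_left _ ?_
    rw [← exfin mu j]
    exact exanti hmu1 hj
  omega

/-- A shape which is not fat has a light tail. -/
theorem not_fat {a b k Y cf : ℕ} {Cf L : ℝ} {mu : Fin k → ℕ} (hanti : Antitone mu)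
    (hCf : 0 ≤ Cf) (hL : 0 ≤ L) (hb0 : 0 < (b : ℝ)) (hba : 0 < (b : ℝ) - a)
    (hbL : (b : ℝ) ≤ ((b : ℝ) - a) * L) (hY : Cf * L ^ (cf + 1) ≤ Y)
    (hfat : ((b : ℝ) - a) * ∑ i, ((min b (mu i) : ℕ) : ℝ) < Cf * L ^ cf * (b : ℝ) ^ 2) :
    dn mu Y ≤ b * Y := by
  apply dn_le_of_min hanti
  have h1 : ∑ i, ((min b (mu i) : ℕ) : ℝ) < Y * b := by
    have h2 : Cf * L ^ cf * (b : ℝ) ^ 2 ≤ ((b : ℝ) - a) * (Y * b) := by
      calc Cf * L ^ cf * (b : ℝ) ^ 2 = (Cf * L ^ cf * b) * b := by ring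
        _ ≤ (Cf * L ^ cf * b) * (((b : ℝ) - a) * L) :=
            mul_le_mul_of_nonneg_left hbL (by positivity)
        _ = ((b : ℝ) - a) * ((Cf * L ^ (cf + 1)) * b) := by ring
        _ ≤ ((b : ℝ) - a) * (Y * b) := by
            apply mul_le_mul_of_nonneg_left _ hba.le
            exact mul_le_mul_of_nonneg_right hY hb0.le
    exact lt_of_mul_lt_mul_left (hfat.trans_le h2) hba.le
  have h2 : ((∑ i, min b (mu i) : ℕ) : ℝ) < ((Y * b : ℕ) : ℝ) := by
    rw [Nat.cast_sum, Nat.cast_mul]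
    exact h1
  exact_mod_cast h2

/-- The logarithm of `X = 8 Y ^ 3`. -/
theorem log_X {Y X e : ℕ} {K L l : ℝ} (hK : 1 ≤ K) (hL : 1 ≤ L) (hY0 : 0 < Y)
    (hX : X = 8 * Y ^ 3) (hY : (Y : ℝ) ≤ 2 * K * L ^ e) (hl : 1 / 2 ≤ l)
    (hLl : Real.log L ≤ l) :
    Real.log X ≤ (2 * Real.log (8 * (2 * K) ^ 3) + 3 * e + 1) * l := by
  have h1 : (X : ℝ) ≤ 8 * (2 * K) ^ 3 * L ^ (3 * e) := by
    rw [hX]
    push_cast
    calc 8 * (Y : ℝ) ^ 3 ≤ 8 * (2 * K * L ^ e) ^ 3 := by gcongr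
      _ = 8 * (2 * K) ^ 3 * L ^ (3 * e) := by rw [pow_mul']; ring
  have hX0 : (0 : ℝ) < X := by
    have : 0 < X := by rw [hX]; positivity
    exact_mod_cast this
  obtain ⟨B, hB⟩ : ∃ B : ℝ, B = Real.log (8 * (2 * K) ^ 3) := ⟨_, rfl⟩
  have hB0 : 0 ≤ B := by
    rw [hB]
    apply Real.log_nonneg
    have : (1 : ℝ) ≤ (2 * K) ^ 3 := one_le_pow₀ (by linarith)
    linarith
  have h2 : Real.log X ≤ B + 3 * e * Real.log L := by
    refine (Real.log_le_log hX0 h1).trans ?_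
    rw [Real.log_mul (by positivity) (by positivity), ← hB, Real.log_pow]
    push_cast
    exact le_rfl
  rw [← hB]
  have h4 : 3 * (e : ℝ) * Real.log L ≤ 3 * e * l :=
    mul_le_mul_of_nonneg_left hLl (by positivity)
  have h5 : B * 1 ≤ B * (2 * l) := mul_le_mul_of_nonneg_left (by linarith) hB0
  have h6 : (2 * B + 3 * e + 1) * l = B * (2 * l) + 3 * e * l + l := by ring
  rw [h6]
  linarith

/-- `b - a` and the logarithm. -/
theorem b_le {a b : ℕ} {M l L : ℝ} (hM : 1 ≤ M) (hl : 1 / 2 ≤ l) (hL : L = 1 + Real.log a)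
    (hba : 0 ≤ (b : ℝ) - a) (h : 400 * M * b * l ≤ ((b : ℝ) - a) * Real.log a) :
    (b : ℝ) ≤ ((b : ℝ) - a) * L := by
  have hb0 : (0 : ℝ) ≤ b := Nat.cast_nonneg _
  have h1 : ((b : ℝ) - a) * Real.log a ≤ ((b : ℝ) - a) * L :=
    mul_le_mul_of_nonneg_left (by rw [hL]; linarith) hba
  have h3 : 1 * (1 / 2) ≤ M * l := mul_le_mul hM hl (by norm_num) (by linarith)
  have h4 : 1 * (b : ℝ) ≤ (400 * (M * l)) * b := mul_le_mul_of_nonneg_right (by linarith) hb0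
  have h5 : (400 * (M * l)) * (b : ℝ) = 400 * M * b * l := by ring
  linarith

/-- **[NEARV]** -/
theorem nearV_of (hC : CorVU)
    (hFat : ∃ (C : ℝ) (c : ℕ), 0 < C ∧ ∀ (a b n : ℕ) (lam : Fin n → ℕ), a ≤ b →
      C * (1 + Real.log a) ^ c * (b : ℝ) ^ 2 ≤
        ((b : ℝ) - a) * ∑ i, ((min b (lam i) : ℕ) : ℝ) →
      plethMult a b n lam ≤ plethMult b a n lam) (hP : PL.PolyS) : NearV := by
  intro C₀ c₀ hC₀
  obtain ⟨a₁, hC⟩ := hC
  obtain ⟨Cf, cf, hCf, hFat⟩ := hFat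
  obtain ⟨CP, cP, hCP, hP⟩ := hP
  obtain ⟨e, he⟩ : ∃ e, e = cP + (cf + 1) + c₀ := ⟨_, rfl⟩
  obtain ⟨K, hK⟩ : ∃ K, K = CP + Cf + C₀ + 2 := ⟨_, rfl⟩
  have hK2 : 2 ≤ K := by
    rw [hK]
    linarith
  obtain ⟨A0, hA0⟩ := MD.H809.ev (2 * K) (by linarith) e 8
  obtain ⟨M, hM⟩ : ∃ M : ℝ, M = 2 * Real.log (8 * (2 * K) ^ 3) + 3 * e + 1 := ⟨_, rfl⟩
  have hM1 : 1 ≤ M := by
    have hB0 : 0 ≤ Real.log (8 * (2 * K) ^ 3) := by
      apply Real.log_nonneg
      have : (1 : ℝ) ≤ (2 * K) ^ 3 := one_le_pow₀ (by linarith)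
      linarith
    rw [hM]
    have : (0 : ℝ) ≤ e := Nat.cast_nonneg _
    linarith
  refine ⟨400 * M, max (max a₁ A0) 3, by positivity, ?_⟩
  intro a b n lam ha hab hD
  have haa : a₁ ≤ a := ((le_max_left _ _).trans (le_max_left _ _)).trans ha
  have haA : A0 ≤ a := ((le_max_right _ _).trans (le_max_left _ _)).trans ha
  have ha3 : 3 ≤ a := (le_max_right _ _).trans ha
  have haR : (3 : ℝ) ≤ a := by exact_mod_cast ha3
  have hla : 0 < Real.log a := Real.log_pos (by linarith)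
  have hev := hA0 a haA
  have hPab := hP a b
  have hFab := hFat a b
  clear hA0 hP hFat ha haA
  obtain ⟨l, hl⟩ : ∃ l, l = Real.log (2 + Real.log a) := ⟨_, rfl⟩
  rw [← hl] at hab
  obtain ⟨L, hLd⟩ : ∃ L : ℝ, L = 1 + Real.log a := ⟨_, rfl⟩
  rw [← hLd] at hev hPab hFab hD
  have hL1 : 1 ≤ L := by
    rw [hLd]
    linarith
  have hl2 : 1 / 2 ≤ l := by
    have h1 : Real.log 2 ≤ l := by
      rw [hl]
      exact Real.log_le_log (by norm_num) (by linarith)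
    have := Real.log_two_gt_d9
    linarith
  have hLl : Real.log L ≤ l := by
    rw [hl]
    exact Real.log_le_log (by linarith) (by rw [hLd]; linarith)
  have hLe : 1 ≤ L ^ e := one_le_pow₀ hL1
  have hle : ∀ {c : ℕ} {C : ℝ}, 0 < C → C ≤ K → c ≤ e → C * L ^ c ≤ K * L ^ e := by
    intro c C hC hCK hce
    have h2 : L ^ c ≤ L ^ e := pow_le_pow_right₀ hL1 hce
    have h4 : 0 ≤ L ^ c := by positivity
    exact mul_le_mul hCK h2 h4 (by linarith)
  obtain ⟨Y, hY⟩ : ∃ Y : ℕ, Y = ⌈K * L ^ e⌉₊ := ⟨_, rfl⟩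
  have hY1 : K * L ^ e ≤ Y := by
    rw [hY]
    exact Nat.le_ceil _
  have hKL : 2 * L ^ e ≤ K * L ^ e := mul_le_mul_of_nonneg_right hK2 (by linarith)
  have hY2 : (Y : ℝ) ≤ 2 * K * L ^ e := by
    have h1 := Nat.ceil_lt_add_one (show 0 ≤ K * L ^ e by linarith)
    rw [← hY] at h1
    linarith
  have h2Y : 2 ≤ Y := by
    have : (2 : ℝ) ≤ Y := by linarith
    exact_mod_cast this
  have hYa : Y ^ 8 ≤ a := by
    have h1 : (Y : ℝ) ^ 8 ≤ a :=
      (pow_le_pow_left₀ (Nat.cast_nonneg _) hY2 8).trans hev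
    exact_mod_cast h1
  have hCPe : CP * L ^ cP ≤ Y := (hle hCP (by rw [hK]; linarith) (by omega)).trans hY1
  have hCfe : Cf * L ^ (cf + 1) ≤ Y := (hle hCf (by rw [hK]; linarith) (by omega)).trans hY1
  have hC0e : C₀ * L ^ c₀ ≤ Y := (hle hC₀ (by rw [hK]; linarith) (by omega)).trans hY1
  -- the polylogarithmic theorem
  by_cases hbY : Y * a < b
  · refine hPab ?_ _ _
    have h2 : ((Y * a : ℕ) : ℝ) ≤ b := by exact_mod_cast hbY.le
    rw [Nat.cast_mul] at h2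
    calc CP * a * L ^ cP = CP * L ^ cP * a := by ring
      _ ≤ Y * a := mul_le_mul_of_nonneg_right hCPe (Nat.cast_nonneg _)
      _ ≤ b := h2
  push Not at hbY
  -- the parameters
  obtain ⟨X, hX⟩ : ∃ X, X = 8 * Y ^ 3 := ⟨_, rfl⟩
  have hX2 : 2 ≤ X := by
    have : 0 < Y ^ 3 := pow_pos (by omega) _
    omega
  have hXl : Real.log X ≤ M * l := by
    rw [hM]
    exact log_X (by linarith) hL1 (by omega) hX hY2 hl2 hLl
  obtain ⟨q, hq1, hq2, hq3, hq4⟩ := exists_q ha3 hX2 hM1 hl2 hXl hab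
  have h2q : 2 * q ≤ Y := by
    have h1 : (2 * q : ℝ) ≤ Y := by
      have h3 : L ≤ L ^ e := le_self_pow₀ hL1 (by omega)
      have h5 : Real.log a ≤ L := by rw [hLd]; linarith
      linarith
    exact_mod_cast h1
  have hab' : a ≤ b := by
    have h1 : q * a ≤ q * b := by
      have : (q + 1) * a = q * a + a := by ring
      omega
    exact Nat.le_of_mul_le_mul_left h1 (by omega)
  have hb0 : (0 : ℝ) < b := by
    have : 0 < b := by omega
    exact_mod_cast this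
  have hba : 0 ≤ (b : ℝ) - a := by
    have : (a : ℝ) ≤ b := by exact_mod_cast hab'
    linarith
  have hbL := b_le hM1 hl2 hLd hba hab
  have hba0 : 0 < (b : ℝ) - a := by
    by_contra hcon
    push Not at hcon
    have : ((b : ℝ) - a) * L ≤ 0 := mul_nonpos_of_nonpos_of_nonneg hcon (by linarith)
    linarith
  have hDn : a ^ 2 ≤ Y * dn lam 2 := by
    have h3 : (a : ℝ) ^ 2 ≤ Y * (dn lam 2 : ℝ) :=
      hD.trans (mul_le_mul_of_nonneg_right hC0e (Nat.cast_nonneg _))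
    exact_mod_cast h3
  refine MD.H809.trim lam fun k mu hmu1 hmu2 _ hka hdn => ?_
  -- fat shapes
  by_cases hfat : Cf * L ^ cf * (b : ℝ) ^ 2 ≤
      ((b : ℝ) - a) * ∑ i, ((min b (mu i) : ℕ) : ℝ)
  · exact hFab k mu hab' hfat
  push Not at hfat
  exact near_nat hC haa (by omega) hmu1 hmu2 hka h2Y hX hYa hbY
    (not_fat hmu1 hCf.le (by linarith) hb0 hba0 hbL hCfe hfat) (by rw [hdn]; exact hDn)
    hq1 h2q hq3 hq4

end Vale.Agent.P181.RV.H809
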