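import Vale.Agent.P181.RV.H34.Par
import Vale.Agent.P181.RV.H153.Top
import Vale.Agent.P181.RV.H627.NumU
import Vale.Agent.P181.RV.H627.CoreU
import Vale.Agent.P181.RV.H809.Near
import Vale.Agent.P181.RG.H348.Mat3
import Vale.Agent.P181.RG.H467.Des
import Vale.Agent.P181.RG.H452.Half
import Vale.Agent.P181.TL.H214.UpB
import Vale.Agent.P181.FD.H422.All
import Vale.Agent.P181.PLX.Main

set_option autoImplicit false

/-!
# P181, RVU: `b ≥ a + C b loglog a / log a` and at least `a ^ 2 / polylog` cells below row two,
no hypothesis left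
-/

namespace Vale.Agent.P181.RV.H809

open Vale.Agent.P181

/-- the core -/
theorem corVU : CorVU :=
  H627.corVU RG.H348.matRG RG.H467.desRG RG.H452.half H34.par H627.numVU H153.topV TL.H214.upB

/-- **the theorem of this line** -/
theorem nearV : NearV := nearV_of corVU FD.fatLog PLX.polyS

end Vale.Agent.P181.RV.H809
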