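import Vale.Agent.P181.RV.H34.Par
import Vale.Agent.P181.RV.H201.Num
import Vale.Agent.P181.RV.H153.Top
import Vale.Agent.P181.RV.H233.Core
import Vale.Agent.P181.RV.H829.Fin
import Vale.Agent.P181.RV.H547.Big
import Vale.Agent.P181.RG.H348.Mat3
import Vale.Agent.P181.RG.H467.Des
import Vale.Agent.P181.RG.H452.Half
import Vale.Agent.P181.TL.H214.UpB
import Vale.Agent.P181.FD.H422.All
import Vale.Agent.P181.PLX.Main

set_option autoImplicit false

/-!
# P181, RV: `b ≥ (1 + δ) a` and at least `a ^ 2 / polylog` cells below row two, no hypothesis left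
-/

namespace Vale.Agent.P181.RV.H809

open Vale.Agent.P181

/-- the core -/
theorem corV : CorV :=
  H233.corV RG.H348.matRG RG.H467.desRG RG.H452.half H34.par H201.numV H153.topV TL.H214.upB

/-- the polylogarithmic form -/
theorem finV : FinV := H829.finV corV PLX.polyS

/-- **the theorem of this line** -/
theorem bigV : BigV := H547.bigV finV FD.fatLog PLX.polyS

end Vale.Agent.P181.RV.H809
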