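import Vale.Agent.P181.RV.Defs
import Vale.Agent.P181.RV.H809.Gap
import Vale.Agent.P181.MD.H809.Fin
import Vale.Agent.P181.TS.H870.Iv
import Vale.Agent.P181.PL.Defs

set_option autoImplicit false

/-!
# P181, RV: [BIGV] from [FINV], the heavy tails and the polylogarithmic theorem
-/

namespace Vale.Agent.P181.RV.H809

open Vale.Agent.P181
open Vale.Agent.P181.T4 (ex)
open Vale.Agent.P181.H280 (plethMult)
open Vale.Agent.P181.PL (dn exlt exge exfin exanti dn_succ)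

/-- The theorem with an explicit polylogarithmic `Y`; the core has `X = 8 Y ^ 3`. -/
theorem big_nat {a b n Y : ℕ} {lam : Fin n → ℕ} (ha : 0 < a) (hY2 : 2 ≤ Y) (hYa : Y ^ 8 ≤ a)
    (hb : b ≤ Y * a) (hd : dn lam Y ≤ b * Y) (hD : a ^ 2 ≤ Y * dn lam 2)
    (h : ∀ (m k : ℕ) (mu : Fin k → ℕ), Antitone mu → ∑ i, mu i = a * b → 3 ≤ m → m ≤ k →
      (∀ i : Fin k, (i : ℕ) < m → a ^ 2 ≤ 8 * Y ^ 3 * mu i ∧
        ∀ j : Fin k, m ≤ (j : ℕ) → a ^ 2 + 8 * Y ^ 3 * mu j ≤ 8 * Y ^ 3 * mu i) →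
      plethMult a b k mu ≤ plethMult b a k mu) :
    plethMult a b n lam ≤ plethMult b a n lam := by
  refine MD.H809.trim lam fun k mu hmu1 hmu2 _ _ hdn => ?_
  have hY4 : 4 * Y ^ 4 ≤ a := by
    calc 4 * Y ^ 4 = 2 ^ 2 * Y ^ 4 := by norm_num
      _ ≤ Y ^ 2 * Y ^ 4 := Nat.mul_le_mul_right _ (Nat.pow_le_pow_left hY2 2)
      _ = Y ^ 6 := by ring
      _ ≤ Y ^ 8 := Nat.pow_le_pow_right (by omega) (by norm_num)
      _ ≤ a := hYa
  have hY3 : 0 < Y ^ 3 := pow_pos (by omega) _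
  obtain ⟨m, hm1, -, hm3⟩ := exists_gapV (X := 8 * Y ^ 3) hmu1 ha hY4 (by omega) hb
    (by rw [hdn]; exact hd) (by rw [hdn]; exact hD)
  have ha2 : 0 < a ^ 2 := pow_pos ha 2
  have hmk : m ≤ k := by
    by_contra hcon
    have h1 := exge mu (show k ≤ m - 1 by omega)
    rw [h1, mul_zero] at hm3
    omega
  refine h m k mu hmu1 hmu2 hm1 hmk fun i hi => ?_
  have h1 : 8 * Y ^ 3 * ex mu (m - 1) ≤ 8 * Y ^ 3 * mu i := by
    refine Nat.mul_le_mul_left _ ?_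
    rw [← exfin mu i]
    exact exanti hmu1 (by omega)
  refine ⟨by omega, fun j hj => ?_⟩
  have h2 : 8 * Y ^ 3 * mu j ≤ 8 * Y ^ 3 * ex mu m := by
    refine Nat.mul_le_mul_left _ ?_
    rw [← exfin mu j]
    exact exanti hmu1 hj
  omega

theorem sum_filter_ge {n X : ℕ} {T : ℝ} (lam : Fin n → ℕ) (h : T ≤ X) :
    (dn lam X : ℝ) ≤
      ∑ i ∈ Finset.univ.filter (fun i : Fin n => T ≤ ((i : ℕ) : ℝ)), (lam i : ℝ) := by
  unfold dn
  rw [Finset.sum_filter]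
  push_cast
  refine Finset.sum_le_sum fun i _ => ?_
  by_cases h4 : X ≤ (i : ℕ)
  · have h5 : T ≤ ((i : ℕ) : ℝ) := h.trans (by exact_mod_cast h4)
    rw [if_pos h4, if_pos h5]
  · rw [if_neg h4]
    split_ifs <;> simp

/-- **[BIGV]** -/
theorem bigV_of (hF : FinV) (hT : TS.H870.TailF) (hP : PL.PolyS) : BigV := by
  intro δ hδ C₀ c₀ hC₀ hc₀
  obtain ⟨CP, cP, hCP, hP⟩ := hP
  obtain ⟨cT, hT⟩ := hT δ hδ
  obtain ⟨e, he⟩ : ∃ e, e = cP + cT + ⌈c₀⌉₊ := ⟨_, rfl⟩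
  obtain ⟨K, hK⟩ : ∃ K, K = CP + C₀ + 2 := ⟨_, rfl⟩
  have hK2 : 2 ≤ K := by
    rw [hK]
    linarith
  obtain ⟨A0, hA0⟩ := MD.H809.ev (2 * K) (by linarith) e 8
  obtain ⟨a₁, hF⟩ := hF δ hδ (8 * (2 * K) ^ 3) ((3 * e : ℕ) : ℝ) (by positivity) (by positivity)
  refine ⟨max (max a₁ A0) 1, ?_⟩
  intro a b n lam ha hab hD
  have haa : a₁ ≤ a := ((le_max_left _ _).trans (le_max_left _ _)).trans ha
  have haA : A0 ≤ a := ((le_max_right _ _).trans (le_max_left _ _)).trans ha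
  have ha1 : 0 < a := (le_max_right _ _).trans ha
  have hev := hA0 a haA
  have hPab := hP a b
  have hTab := hT a b
  have hFab := fun m n lam => hF a b m n lam haa
  have hlog : 0 ≤ Real.log a := Real.log_natCast_nonneg a
  obtain ⟨L, hLd⟩ : ∃ L : ℝ, L = 1 + Real.log a := ⟨_, rfl⟩
  rw [← hLd] at hev hPab hTab hFab hD
  have hL1 : 1 ≤ L := by
    rw [hLd]
    linarith
  have hLe : 1 ≤ L ^ e := one_le_pow₀ hL1
  have hle : ∀ {c : ℕ} {C : ℝ}, 0 < C → C ≤ K → c ≤ e → C * L ^ c ≤ K * L ^ e := by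
    intro c C hC hCK hce
    have h2 : L ^ c ≤ L ^ e := pow_le_pow_right₀ hL1 hce
    have h4 : 0 ≤ L ^ c := by positivity
    exact mul_le_mul hCK h2 h4 (by linarith)
  obtain ⟨Y, hY⟩ : ∃ Y : ℕ, Y = ⌈K * L ^ e⌉₊ := ⟨_, rfl⟩
  have hY1 : K * L ^ e ≤ Y := by
    rw [hY]
    exact Nat.le_ceil _
  have hKL : 2 ≤ K * L ^ e := by nlinarith
  have hY2 : (Y : ℝ) ≤ 2 * K * L ^ e := by
    have h1 := Nat.ceil_lt_add_one (show 0 ≤ K * L ^ e by linarith)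
    rw [← hY] at h1
    linarith
  have h2Y : 2 ≤ Y := by
    have : (2 : ℝ) ≤ Y := hKL.trans hY1
    exact_mod_cast this
  have hYa : Y ^ 8 ≤ a := by
    have h1 : (Y : ℝ) ^ 8 ≤ a :=
      (pow_le_pow_left₀ (Nat.cast_nonneg _) hY2 8).trans hev
    exact_mod_cast h1
  -- the polylogarithmic theorem
  by_cases hbY : Y * a < b
  · refine hPab ?_ _ _
    have h1 : CP * L ^ cP ≤ K * L ^ e := hle hCP (by rw [hK]; linarith) (by omega)
    have h2 : ((Y * a : ℕ) : ℝ) ≤ b := by exact_mod_cast hbY.le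
    rw [Nat.cast_mul] at h2
    calc CP * a * L ^ cP = CP * L ^ cP * a := by ring
      _ ≤ Y * a := mul_le_mul_of_nonneg_right (h1.trans hY1) (Nat.cast_nonneg _)
      _ ≤ b := h2
  push Not at hbY
  -- a heavy tail
  by_cases hd : b * Y < dn lam Y
  · refine hTab _ _ hab ?_
    have h1 : 1 * L ^ cT ≤ K * L ^ e := hle one_pos (by linarith) (by omega)
    rw [one_mul] at h1
    have h2 : ((b * Y : ℕ) : ℝ) ≤ (dn lam Y : ℝ) := by exact_mod_cast hd.le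
    push_cast at h2
    refine le_trans ?_ (h2.trans (sum_filter_ge lam (h1.trans hY1)))
    exact mul_le_mul_of_nonneg_left (h1.trans hY1) (Nat.cast_nonneg _)
  push Not at hd
  refine big_nat ha1 h2Y hYa hbY hd ?_ ?_
  · have h1 : C₀ * L ^ c₀ ≤ K * L ^ e := by
      have h2 : L ^ c₀ ≤ L ^ e := by
        rw [← Real.rpow_natCast]
        refine Real.rpow_le_rpow_of_exponent_le hL1 ((Nat.le_ceil c₀).trans ?_)
        rw [he]
        push_cast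
        linarith [(Nat.cast_nonneg cP : (0 : ℝ) ≤ cP), (Nat.cast_nonneg cT : (0 : ℝ) ≤ cT)]
      have h3 : C₀ ≤ K := by
        rw [hK]
        linarith
      exact mul_le_mul h3 h2 (Real.rpow_nonneg (by linarith) _) (by linarith)
    have h2 : (∑ i : Fin n, (lam i.succ.succ : ℝ)) = ((dn lam 2 : ℕ) : ℝ) := by
      unfold dn
      rw [Fin.sum_univ_succ, Fin.sum_univ_succ]
      simp
    rw [h2] at hD
    have h3 : (a : ℝ) ^ 2 ≤ Y * (dn lam 2 : ℝ) :=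
      hD.trans (mul_le_mul_of_nonneg_right (h1.trans hY1) (Nat.cast_nonneg _))
    exact_mod_cast h3
  · intro m k mu hmu1 hmu2 hm hmk hgap
    have hX : (8 * (Y : ℝ) ^ 3) ≤ 8 * (2 * K) ^ 3 * L ^ (((3 * e : ℕ)) : ℝ) := by
      rw [Real.rpow_natCast]
      calc 8 * (Y : ℝ) ^ 3 ≤ 8 * (2 * K * L ^ e) ^ 3 := by gcongr
        _ = 8 * (2 * K) ^ 3 * L ^ (3 * e) := by rw [pow_mul']; ring
    have ha2 : (0 : ℝ) < (a : ℝ) ^ 2 := by positivity
    refine hFab m k mu hmu1 hmu2 hab hm hmk fun i hi => ?_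
    obtain ⟨h1, h2⟩ := hgap i hi
    refine ⟨?_, fun j hj => ?_⟩
    · have h3 : (a : ℝ) ^ 2 ≤ 8 * (Y : ℝ) ^ 3 * mu i := by exact_mod_cast h1
      exact h3.trans (mul_le_mul_of_nonneg_right hX (Nat.cast_nonneg _))
    · have h3 : (a : ℝ) ^ 2 + 8 * (Y : ℝ) ^ 3 * mu j ≤ 8 * (Y : ℝ) ^ 3 * mu i := by
        exact_mod_cast h2 j hj
      have h4 : (a : ℝ) ^ 2 ≤ 8 * (Y : ℝ) ^ 3 * ((mu i : ℝ) - mu j) := by linarith
      have h5 : 0 ≤ (mu i : ℝ) - mu j := by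
        by_contra hcon
        push Not at hcon
        have : 8 * (Y : ℝ) ^ 3 * ((mu i : ℝ) - mu j) ≤ 0 :=
          mul_nonpos_of_nonneg_of_nonpos (by positivity) hcon.le
        linarith
      exact h4.trans (mul_le_mul_of_nonneg_right hX h5)

end Vale.Agent.P181.RV.H809
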